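import Vale.Agent.P225.Assembly.Main

/-!
P225: a complete manifold with nonnegative Ricci curvature of dimension seven carrying more
independent harmonic functions of polynomial growth of some integer order than euclidean space.
-/

namespace Vale.Agent.Results.P225.YauComparisonFails

open Vale.Agent.P225

theorem result : ∃ (U : Set Pt) (g : MetricField) (o : Pt) (k N : ℕ) (u : Fin N → Pt → ℝ),
    o ∈ U ∧ 1 ≤ k ∧ IsRicNonnegComplete U g ∧ (∀ n, IsHarmonicGrowth U g o k (u n)) ∧
      LinearIndependent ℝ (fun n => U.domRestrict (u n)) ∧
        Nat.choose (k + 6) k + Nat.choose (k + 5) (k - 1) < N :=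
  yauFails

end Vale.Agent.Results.P225.YauComparisonFails
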